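import Vale.Agent.P355.Seven.Data.Defs

/-! Certificate data for the flat case. -/

namespace Vale.Agent.P355.Seven.Data

noncomputable def gw1 (k i : ℕ) : ℤ := rowAt (List.getD [0x2fe39367eee000000000000000000b752b2b1f9840000000000000000c52e0494831300000000000000006297024a454f80000000000000001df5d8251934000000000000000001c1821b5c6b6000000000000000403eb229a8bb6, 0xa5dab111fb800000000000000006e08185abb30000000000000000040c8fa0a1084000000000000000020647d05074d00000000000000003ee48e740e5cc0000000000000001e54325239a700000000000000000000000000000, 0x7ca2073146c0000000000000000007b671afb620000000000000000017751a4b275000000000000000000bba8d2593c80000000000000000549c2c56ee5000000000000000000000000000000000000000000000000000000000, 0x2c7bab0dc55400000000000000000598d329494000000000000000000d5c4358f0c2000000000000000007bc21b2769a0000000000000000000000000000000000000000000000000000000000000000000000000000000000000, 0xc0843db48b400000000000000000183910f80d0000000000000000007cc5e3b787a00000000000000000000000000000000000000000000000000000000000000000000000000000000000000000000000000000000000000000, 0x123d6dbf4888000000000000000003e2d6945dc4000000000000000000000000000000000000000000000000000000000000000000000000000000000000000000000000000000000000000000000000000000000000000000000, 0x438becd4d1c000000000000000000000000000000000000000000000000000000000000000000000000000000000000000000000000000000000000000000000000000000000000000000000]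 k 0) i
theorem okPsd1 : psdCheck 7 7 gw1 (grid.gram 1) = true := by decide +kernel

end Vale.Agent.P355.Seven.Data
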