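import Vale.Agent.P355.Seven.Data.Defs

/-! Certificate data for the flat case. -/

namespace Vale.Agent.P355.Seven.Data

noncomputable def gw6 (k i : ℕ) : ℤ := rowAt (List.getD [0x55c290e2c30380000000000000003d76744d503ae0000000000000004ca5fe55a07450000000000000000b4eb16cd7966000000000000000192d0e03d75374000000000000000095c378b1304c0000000000000010bd87101ee8c4, 0x38482c6ff9f0000000000000000054dd18f8df50000000000000000087d4916b04b4000000000000000000000000000000000000000000002ba9da239c4380000000000000000137db5f5e8b00000000000000001c1d6a160e8f3, 0x19e5e108935000000000000000000c8a96e7e95a00000000000000000b9713e0da180000000000000000000000000000000000000000000000000000000000000000000000000189413215a6000000000000000002ff1d69ca79a, 0x4f20e7c691880000000000000000076ead540cc6000000000000000002ff33ddd8d30000000000000000000000000000000000000000000000000000000000000000000000000687edd79e3180000000000000000000000000000, 0x14e8313c7404000000000000000019f9dde1b5c000000000000000000b1dbd52035f00000000000000000000000000000000000000000000000000000000000000000000000000000000000000000000000000000000000000000, 0x10d2be9e7ae400000000000000000000000000000000000000000000104c734374a400000000000000000000000000000000000000000000000000000000000000000000000000000000000000000000000000000000000000000, 0x41aa91430e880000000000000000000000000000000000000000000000000000000000000000000000000000000000000000000000000000000000000000000000000000000000000000000000000000000000000000000000000]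 k 0) i
theorem okPsd6 : psdCheck 7 7 gw6 (grid.gram 6) = true := by decide +kernel

end Vale.Agent.P355.Seven.Data
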