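import Vale.Agent.P355.Seven.Data.Defs

/-! Certificate data for the flat case. -/

namespace Vale.Agent.P355.Seven.Data

noncomputable def gw7 (k i : ℕ) : ℤ := rowAt (List.getD [0x6092d8203a0000000000000000025b4905a4ed1c0000000000000001d567ceeeee62000000000000000146f4d1619aa0e0000000000000002f645093924ce00000000000000058bdf8345d0600000000000000003f624d4497c03c000000000000000905d812a0525200000000000000091c42ebbd5596, 0x3f6a7bd2587500000000000000005ab221aef8778000000000000000a082eeb5d443400000000000000053753f68297d400000000000000000000000000000000000000000001b38aeafbdde180000000000000011484508ce999800000000000000008c12282e5b2e00000000000000029806545fc449, 0x19e96c3284400000000000000000389aaa07b4100000000000000000435e20a144e000000000000000000e68f9aa2b9400000000000000000000000000000000000000000000094bbf9b2384000000000000000000000000000000000000000000000420c9e2b848c000000000000000007c35078aa76, 0x4b76275f77b000000000000000004c9c5c141db000000000000000004beab48cc81400000000000000001ce4c6875f080000000000000000000000000000000000000000000008e8d24d71478000000000000000000000000000000000000000000000000000000000000000000000000205c05ac2e46, 0x4de5070e660000000000000000001ab55a41268800000000000000003237833b33d0000000000000000009aca173cc84000000000000000000000000000000000000000000000e1d709e089a0000000000000000000000000000000000000000000000000000000000000000000000000000000000000,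 0xd54797c5e0c0000000000000000009db43a501a8000000000000000002491aa2615c00000000000000001187696392e2000000000000000000000000000000000000000000000000000000000000000000000000000000000000000000000000000000000000000000000000000000000000000000000, 0x1617988042300000000000000000bdcb45e4e278000000000000000014f8728a6886000000000000000000000000000000000000000000000000000000000000000000000000000000000000000000000000000000000000000000000000000000000000000000000, 0x7c94ffed01600000000000000000000000000000000000000000000018d4f005ddf0000000000000000000000000000000000000000000000000000000000000000000000000000000000000000000000000000000000000000000000000000000000000000000000, 0x10a41fbece6c000000000000000000000000000000000000000000000000000000000000000000000000000000000000000000000000000000000000000000000000000000000000000000000] k 0) i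
theorem okPsd7 : psdCheck 9 9 gw7 (grid.gram 7) = true := by decide +kernel

end Vale.Agent.P355.Seven.Data
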