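import Vale.Agent.P355.Seven.Data.Table

/-! Certificate data for the flat case. -/

namespace Vale.Agent.P355.Seven.Data

noncomputable def feats : List (ℤ × List ℕ × (Slot × Slot × Slot × Slot)) :=
  [(725713792865780500386222879346874, [0, 0], (.inl 0, .inl 0, .inr 0, .inr 0)), (-13243633568734733235733012771105774, [0, 0, 65, 81], (.inl 0, .inl 0, .inl 4, .inl 5)), (146319771853528042526941986008606, [0, 0, 9, 11, 65, 81], (.inr 4, .inr 5, .inl 4, .inl 5)), (-9946176907966704050735629634834289, [0, 0, 11, 18, 33, 42], (.inl 0, .inl 1, .inr 0, .inr 1)), (30674691893196626385652537184510298, [0, 0, 9, 11, 17, 24, 81], (.inr 5, .inl 0, .inl 5, .inl 0)), (631395916273360260141333839782887, [0, 0, 0, 9, 11, 17, 24, 81], (.inl 0, .inr 5, .inl 5, .inr 0)), (-762657152846104246166908065994862, [0, 0, 0, 11, 17, 18, 33, 42], (.inl 0, .inl 0, .inr 0, .inr 1))]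
noncomputable def WFeat : List ℕ :=
  unblocks (fun x => x) 85 [(27, 0x100052b460b1a200000000800295a3058d10000000040014ad182c68800000000001458d1163440000000100052c68856320000000000049634458d10000001640014b1a2158c800000000000a58d10ac640000000000082c688b1a200000000000295a3058d1000022008001cb1a22c65000000000000c58d1163440000000000052568846c60000000000029634423630000000000010b1a22c688a3040008000058d1163440000000000032346846c600000000000191aa42363000000000000c8ea211b180000000000064ad108d8c0000000000032c68846c60000000000011634458d10000000080000b1a22c68800000004000058d1163440000000200002c688b1a20000000100001634458d10000000000004b1a22c688)]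
noncomputable def PFeat (s : ℕ) : List (ℕ × ℤ) :=
  partAt 138 0x34e0af2c454ed16d01774585c05ab1000a0af1b8515ec875daf97401c6fd9f36000256276be9b0d62fbd43de205aa86d1180008227aeb3bfb44a7dcf7ce6ff09f15f20001eb19a60afa15d1d435c20becc6db6e9000636b1fc44952513d5e6dc8ae12b690e400140a25157567c05c6aa5cc5d3c7cda30000406606763ff88dafc5a37e44854cdd34000c9909b15ff4d487a8753d66c7f34bc900020c943d9ffee179a48346b2a02fe164000040519ec4fffa0af30482cb6a043d7dd0000 0xb000b000b000b000b000b000b000b000b000b000b000b000b000b000b000b000b000b000b000b000b000b000b000b000b000b000b000b000b000b000b000b000b000b000b000b000b000b000b000b000b000b000b000b000b000b000b000b000b000b000b000b000b000b000b000b000b000b000b000b000b000b000b000b000b000b000b000b000b000b000b000b000b000b000b000b000b000b000b000b000b000b000b000b000b000b000b000b000b000b000b000b000b000b000b000b0000 s getTotal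
set_option maxRecDepth 200000 in
theorem chkFeat : checkPacked tbl 124 (allFeatTerms feats) WFeat (icat PFeat 96) = true := by
  decide +kernel
theorem feats_par : ∀ x ∈ feats, okParity x.2.2 = true := by decide +kernel
theorem feats_wt : ∀ x ∈ feats,
    monWt (x.2.1.map ldec) = quartWt x.2.2.1 x.2.2.2.1 x.2.2.2.2.1 x.2.2.2.2.2 := by decide +kernel

end Vale.Agent.P355.Seven.Data
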