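import Vale.Agent.P355.Seven.Data.Defs
import Vale.Agent.P355.Seven.Data.Feat
import Vale.Agent.P355.Seven.Data.Grid0
import Vale.Agent.P355.Seven.Data.Grid1
import Vale.Agent.P355.Seven.Data.Grid2
import Vale.Agent.P355.Seven.Data.Grid3
import Vale.Agent.P355.Seven.Data.Grid4
import Vale.Agent.P355.Seven.Data.Grid5
import Vale.Agent.P355.Seven.Data.Grid6
import Vale.Agent.P355.Seven.Data.Grid7
import Vale.Agent.P355.Seven.Data.Grid8
import Vale.Agent.P355.Seven.Data.Grid9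
import Vale.Agent.P355.Seven.Data.Grid10
import Vale.Agent.P355.Seven.Data.Grid11
import Vale.Agent.P355.Seven.Data.Grid12
import Vale.Agent.P355.Seven.Data.Grid13
import Vale.Agent.P355.Seven.Data.Grid14
import Vale.Agent.P355.Seven.Data.Grid15
import Vale.Agent.P355.Seven.Data.Grid16
import Vale.Agent.P355.Seven.Data.Grid17
import Vale.Agent.P355.Seven.Data.Grid18
import Vale.Agent.P355.Seven.Data.Grid19
import Vale.Agent.P355.Seven.Data.Grid20
import Vale.Agent.P355.Seven.Data.Grid21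
import Vale.Agent.P355.Seven.Data.Grid22
import Vale.Agent.P355.Seven.Data.Grid23
import Vale.Agent.P355.Seven.Data.Grid24
import Vale.Agent.P355.Seven.Data.Grid25
import Vale.Agent.P355.Seven.Data.Grid26
import Vale.Agent.P355.Seven.Data.Grid27
import Vale.Agent.P355.Seven.Data.Grid28
import Vale.Agent.P355.Seven.Data.Grid29
import Vale.Agent.P355.Seven.Data.Grid30
import Vale.Agent.P355.Seven.Data.Grid31
import Vale.Agent.P355.Seven.Data.Grid32
import Vale.Agent.P355.Seven.Data.Grid33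
import Vale.Agent.P355.Seven.Data.Grid34
import Vale.Agent.P355.Seven.Data.Grid35
import Vale.Agent.P355.Seven.Data.Grid36
import Vale.Agent.P355.Seven.Data.Grid37
import Vale.Agent.P355.Seven.Data.Grid38
import Vale.Agent.P355.Seven.Data.Grid39
import Vale.Agent.P355.Seven.Data.Grid40
import Vale.Agent.P355.Seven.Data.Grid41
import Vale.Agent.P355.Seven.Data.Grid42
import Vale.Agent.P355.Seven.Data.Grid43
import Vale.Agent.P355.Seven.Data.Grid44
import Vale.Agent.P355.Seven.Data.Grid45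
import Vale.Agent.P355.Seven.Data.Grid46
import Vale.Agent.P355.Seven.Data.Grid47
import Vale.Agent.P355.Seven.Data.Grid48
import Vale.Agent.P355.Seven.Data.Grid49
import Vale.Agent.P355.Seven.Data.Grid50
import Vale.Agent.P355.Seven.Data.Grid51
import Vale.Agent.P355.Seven.Data.Grid52
import Vale.Agent.P355.Seven.Data.Grid53
import Vale.Agent.P355.Seven.Data.Grid54
import Vale.Agent.P355.Seven.Data.RelMod13
import Vale.Agent.P355.Seven.Data.RelMod27
import Vale.Agent.P355.Seven.Data.RelMod41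
import Vale.Agent.P355.Seven.Data.RelMod55
import Vale.Agent.P355.Seven.Data.RelMod69
import Vale.Agent.P355.Seven.Data.RelMod83
import Vale.Agent.P355.Seven.Data.RelMod97
import Vale.Agent.P355.Seven.Data.RelMod111
import Vale.Agent.P355.Seven.Data.RelMod125
import Vale.Agent.P355.Seven.Data.RelMod139
import Vale.Agent.P355.Seven.Data.RelMod153
import Vale.Agent.P355.Seven.Data.RelMod167
import Vale.Agent.P355.Seven.Data.RelMod181
import Vale.Agent.P355.Seven.Data.RelMod195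
import Vale.Agent.P355.Seven.Data.RelMod209
import Vale.Agent.P355.Seven.Data.RelMod223
import Vale.Agent.P355.Seven.Data.RelMod237
import Vale.Agent.P355.Seven.Data.RelMod251
import Vale.Agent.P355.Seven.Data.RelMod265
import Vale.Agent.P355.Seven.Data.RelMod279
import Vale.Agent.P355.Seven.Data.RelMod293
import Vale.Agent.P355.Seven.Data.RelMod300
import Vale.Agent.P355.Seven.Data.TauMod0

/-! Certificate data for the flat case. -/

namespace Vale.Agent.P355.Seven.Data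

noncomputable def cutF (a k : ℕ) : ℕ := List.getD (List.getD [[0, 1], [0, 2], [0, 3], [0, 4], [0, 5], [0, 6], [0, 7], [0, 8], [0, 9], [0, 10], [0, 11], [0, 12], [0, 13], [0, 14], [0, 15], [0, 16], [0, 17], [0, 18], [0, 19], [0, 20], [0, 21], [0, 22], [0, 23], [0, 24], [0, 25], [0, 26], [0, 26, 27], [0, 26, 28], [0, 26, 29], [0, 26, 30], [0, 26, 31], [0, 26, 32], [0, 26, 33], [0, 26, 34], [0, 26, 35], [0, 26, 36], [0, 26, 37], [0, 26, 37, 38], [0, 26, 37, 39], [0, 26, 37, 40], [0, 26, 37, 41], [0, 26, 37, 42], [0, 35, 43], [0, 35, 44], [0, 35, 45], [0, 35, 46], [0, 29, 40, 47], [0, 29, 40, 48], [0, 26, 37, 48, 49], [0, 26, 37, 48, 50], [0, 26, 37, 48, 51], [0, 35, 46, 52], [0, 35, 46, 53], [0, 15, 27, 33, 39, 45, 51, 54], [0, 15, 27, 33, 39, 45, 51, 55], [0, 15, 29, 35, 41, 47, 53, 56], [0, 15, 27, 33, 39, 45, 51, 55, 57], [0, 15, 27, 33, 39, 45, 51, 55, 58], [0, 15, 27, 33, 39, 45, 51, 55, 58, 59], [0, 15, 27, 33, 39, 45, 51, 55, 58,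 60], [0, 30, 36, 42, 48, 54, 57, 60, 61], [0, 57, 60, 62], [0, 57, 60, 63], [0, 15, 27, 33, 39, 45, 51, 55, 58, 61, 64], [0, 15, 27, 33, 39, 45, 51, 55, 58, 61, 65], [0, 54, 59, 66], [0, 54, 58, 61, 64, 67], [0, 15, 27, 33, 39, 45, 51, 55, 58, 61, 66, 68], [0, 55, 59, 62, 65, 69], [0, 15, 27, 33, 39, 45, 51, 55, 58, 61, 66, 70], [0, 15, 29, 35, 41, 47, 53, 56, 59, 64, 70, 71], [0, 54, 58, 61, 64, 67, 70, 72], [0, 54, 58, 61, 64, 67, 70, 73], [0, 30, 36, 42, 48, 54, 57, 60, 65, 71, 74], [0, 30, 36, 42, 48, 54, 57, 60, 65, 71, 75], [0, 30, 36, 42, 48, 54, 57, 60, 65, 71, 76], [0, 30, 36, 42, 48, 54, 57, 60, 65, 71, 76, 77], [0, 30, 36, 42, 48, 54, 57, 60, 65, 71, 76, 78], [0, 30, 36, 42, 48, 54, 57, 60, 65, 71, 76, 79], [0, 30, 36, 42, 48, 54, 57, 60, 65, 71, 76, 79, 80], [0, 30, 36, 42, 48, 54, 57, 60, 65, 71, 76, 79, 81], [0, 30, 36, 42, 48, 54, 57, 60, 65, 71, 76, 79, 82], [0, 30, 36, 42, 48, 54, 57, 60, 65, 71, 76, 79, 82, 83], [0, 30,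 36, 42, 48, 54, 57, 60, 65, 71, 76, 79, 82, 84], [0, 30, 36, 42, 48, 54, 57, 60, 65, 71, 76, 79, 82, 85], [0, 30, 36, 42, 48, 54, 57, 60, 65, 71, 76, 79, 82, 85, 86], [0, 27, 30, 33, 36, 39, 42, 45, 48, 51, 54, 56, 58, 60, 62, 64, 67, 69, 71, 73, 75, 77, 79, 81, 83, 85, 87], [0, 27, 30, 33, 36, 39, 42, 45, 48, 51, 54, 56, 58, 60, 62, 64, 67, 69, 71, 73, 75, 77, 79, 81, 83, 85, 87, 88], [0, 27, 30, 33, 36, 39, 42, 45, 48, 51, 54, 56, 58, 60, 62, 64, 67, 69, 71, 73, 75, 77, 79, 81, 83, 85, 87, 88, 89], [0, 27, 30, 33, 36, 39, 42, 45, 48, 51, 54, 56, 58, 60, 62, 64, 67, 69, 71, 73, 75, 77, 79, 81, 83, 85, 87, 88, 89, 90], [0, 27, 30, 33, 36, 39, 42, 45, 48, 51, 54, 56, 58, 60, 64, 68, 71, 75, 77, 79, 81, 83, 85, 87, 88, 89, 90, 91], [0, 27, 30, 33, 36, 39, 42, 45, 48, 51, 54, 56, 58, 60, 62, 64, 67, 69, 71, 73, 75, 77, 79, 81, 83, 85, 87, 88, 89, 90, 91, 92], [0, 55, 58, 60, 62, 64, 69, 73, 87, 88, 89, 90, 92, 93], [0, 27, 30, 33, 36, 39,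 42, 45, 48, 51, 54, 56, 58, 60, 62, 64, 67, 69, 71, 73, 75, 77, 79, 81, 83, 85, 87, 88, 89, 90, 91, 92, 93, 94]] a []) k 0
noncomputable def nCut (a : ℕ) : ℕ := List.getD [1, 1, 1, 1, 1, 1, 1, 1, 1, 1, 1, 1, 1, 1, 1, 1, 1, 1, 1, 1, 1, 1, 1, 1, 1, 1, 2, 2, 2, 2, 2, 2, 2, 2, 2, 2, 2, 3, 3, 3, 3, 3, 2, 2, 2, 2, 3, 3, 4, 4, 4, 3, 3, 7, 7, 7, 8, 8, 9, 9, 8, 3, 3, 10, 10, 3, 5, 11, 5, 11, 11, 7, 7, 10, 10, 10, 11, 11, 11, 12, 12, 12, 13, 13, 13, 14, 26, 27, 28, 29, 27, 31, 13, 33] a 0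
noncomputable def PG (a k : ℕ) : ℕ → List (ℕ × ℤ) := List.getD (List.getD [[PG0_0], [PG1_0], [PG2_0], [PG3_0], [PG4_0], [PG5_0], [PG6_0], [PG7_0], [PG8_0], [PG9_0], [PG10_0], [PG11_0], [PG12_0], [PG13_0], [PG14_0], [PG15_0], [PG16_0], [PG17_0], [PG18_0], [PG19_0], [PG20_0], [PG21_0], [PG22_0], [PG23_0], [PG24_0], [PG25_0], [PG26_0, PG26_1], [PG27_0, PG27_1], [PG28_0, PG28_1], [PG29_0, PG29_1], [PG30_0, PG30_1], [PG31_0, PG31_1], [PG32_0, PG32_1], [PG33_0, PG33_1], [PG34_0, PG34_1], [PG35_0, PG35_1], [PG36_0, PG36_1], [PG37_0, PG37_1, PG37_2], [PG38_0, PG38_1, PG38_2], [PG39_0, PG39_1, PG39_2], [PG40_0, PG40_1, PG40_2], [PG41_0, PG41_1, PG41_2], [PG42_0, PG42_1], [PG43_0, PG43_1], [PG44_0, PG44_1], [PG45_0, PG45_1], [PG46_0, PG46_1, PG46_2], [PG47_0, PG47_1, PG47_2], [PG48_0, PG48_1, PG48_2, PG48_3], [PG49_0, PG49_1, PG49_2, PG49_3], [PG50_0, PG50_1, PG50_2, PG50_3], [PG51_0, PG51_1, PG51_2], [PG52_0, PG52_1, PG52_2], [PG53_0, PG53_1, PG53_2,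 PG53_3, PG53_4, PG53_5, PG53_6], [PG54_0, PG54_1, PG54_2, PG54_3, PG54_4, PG54_5, PG54_6], [PG55_0, PG55_1, PG55_2, PG55_3, PG55_4, PG55_5, PG55_6], [PG56_0, PG56_1, PG56_2, PG56_3, PG56_4, PG56_5, PG56_6, PG56_7], [PG57_0, PG57_1, PG57_2, PG57_3, PG57_4, PG57_5, PG57_6, PG57_7], [PG58_0, PG58_1, PG58_2, PG58_3, PG58_4, PG58_5, PG58_6, PG58_7, PG58_8], [PG59_0, PG59_1, PG59_2, PG59_3, PG59_4, PG59_5, PG59_6, PG59_7, PG59_8], [PG60_0, PG60_1, PG60_2, PG60_3, PG60_4, PG60_5, PG60_6, PG60_7], [PG61_0, PG61_1, PG61_2], [PG62_0, PG62_1, PG62_2], [PG63_0, PG63_1, PG63_2, PG63_3, PG63_4, PG63_5, PG63_6, PG63_7, PG63_8, PG63_9], [PG64_0, PG64_1, PG64_2, PG64_3, PG64_4, PG64_5, PG64_6, PG64_7, PG64_8, PG64_9], [PG65_0, PG65_1, PG65_2], [PG66_0, PG66_1, PG66_2, PG66_3, PG66_4], [PG67_0, PG67_1, PG67_2, PG67_3, PG67_4, PG67_5, PG67_6, PG67_7, PG67_8, PG67_9, PG67_10], [PG68_0, PG68_1, PG68_2, PG68_3, PG68_4], [PG69_0, PG69_1, PG69_2, PG69_3, PG69_4,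 PG69_5, PG69_6, PG69_7, PG69_8, PG69_9, PG69_10], [PG70_0, PG70_1, PG70_2, PG70_3, PG70_4, PG70_5, PG70_6, PG70_7, PG70_8, PG70_9, PG70_10], [PG71_0, PG71_1, PG71_2, PG71_3, PG71_4, PG71_5, PG71_6], [PG72_0, PG72_1, PG72_2, PG72_3, PG72_4, PG72_5, PG72_6], [PG73_0, PG73_1, PG73_2, PG73_3, PG73_4, PG73_5, PG73_6, PG73_7, PG73_8, PG73_9], [PG74_0, PG74_1, PG74_2, PG74_3, PG74_4, PG74_5, PG74_6, PG74_7, PG74_8, PG74_9], [PG75_0, PG75_1, PG75_2, PG75_3, PG75_4, PG75_5, PG75_6, PG75_7, PG75_8, PG75_9], [PG76_0, PG76_1, PG76_2, PG76_3, PG76_4, PG76_5, PG76_6, PG76_7, PG76_8, PG76_9, PG76_10], [PG77_0, PG77_1, PG77_2, PG77_3, PG77_4, PG77_5, PG77_6, PG77_7, PG77_8, PG77_9, PG77_10], [PG78_0, PG78_1, PG78_2, PG78_3, PG78_4, PG78_5, PG78_6, PG78_7, PG78_8, PG78_9, PG78_10], [PG79_0, PG79_1, PG79_2, PG79_3, PG79_4, PG79_5, PG79_6, PG79_7, PG79_8, PG79_9, PG79_10, PG79_11], [PG80_0, PG80_1, PG80_2, PG80_3, PG80_4, PG80_5, PG80_6, PG80_7, PG80_8,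 PG80_9, PG80_10, PG80_11], [PG81_0, PG81_1, PG81_2, PG81_3, PG81_4, PG81_5, PG81_6, PG81_7, PG81_8, PG81_9, PG81_10, PG81_11], [PG82_0, PG82_1, PG82_2, PG82_3, PG82_4, PG82_5, PG82_6, PG82_7, PG82_8, PG82_9, PG82_10, PG82_11, PG82_12], [PG83_0, PG83_1, PG83_2, PG83_3, PG83_4, PG83_5, PG83_6, PG83_7, PG83_8, PG83_9, PG83_10, PG83_11, PG83_12], [PG84_0, PG84_1, PG84_2, PG84_3, PG84_4, PG84_5, PG84_6, PG84_7, PG84_8, PG84_9, PG84_10, PG84_11, PG84_12], [PG85_0, PG85_1, PG85_2, PG85_3, PG85_4, PG85_5, PG85_6, PG85_7, PG85_8, PG85_9, PG85_10, PG85_11, PG85_12, PG85_13], [PG86_0, PG86_1, PG86_2, PG86_3, PG86_4, PG86_5, PG86_6, PG86_7, PG86_8, PG86_9, PG86_10, PG86_11, PG86_12, PG86_13, PG86_14, PG86_15, PG86_16, PG86_17, PG86_18, PG86_19, PG86_20, PG86_21, PG86_22, PG86_23, PG86_24, PG86_25], [PG87_0, PG87_1, PG87_2, PG87_3, PG87_4, PG87_5, PG87_6, PG87_7, PG87_8, PG87_9, PG87_10, PG87_11, PG87_12, PG87_13, PG87_14, PG87_15, PG87_16, PG87_17,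 PG87_18, PG87_19, PG87_20, PG87_21, PG87_22, PG87_23, PG87_24, PG87_25, PG87_26], [PG88_0, PG88_1, PG88_2, PG88_3, PG88_4, PG88_5, PG88_6, PG88_7, PG88_8, PG88_9, PG88_10, PG88_11, PG88_12, PG88_13, PG88_14, PG88_15, PG88_16, PG88_17, PG88_18, PG88_19, PG88_20, PG88_21, PG88_22, PG88_23, PG88_24, PG88_25, PG88_26, PG88_27], [PG89_0, PG89_1, PG89_2, PG89_3, PG89_4, PG89_5, PG89_6, PG89_7, PG89_8, PG89_9, PG89_10, PG89_11, PG89_12, PG89_13, PG89_14, PG89_15, PG89_16, PG89_17, PG89_18, PG89_19, PG89_20, PG89_21, PG89_22, PG89_23, PG89_24, PG89_25, PG89_26, PG89_27, PG89_28], [PG90_0, PG90_1, PG90_2, PG90_3, PG90_4, PG90_5, PG90_6, PG90_7, PG90_8, PG90_9, PG90_10, PG90_11, PG90_12, PG90_13, PG90_14, PG90_15, PG90_16, PG90_17, PG90_18, PG90_19, PG90_20, PG90_21, PG90_22, PG90_23, PG90_24, PG90_25, PG90_26], [PG91_0, PG91_1, PG91_2, PG91_3, PG91_4, PG91_5, PG91_6, PG91_7, PG91_8, PG91_9, PG91_10, PG91_11, PG91_12, PG91_13, PG91_14, PG91_15,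 PG91_16, PG91_17, PG91_18, PG91_19, PG91_20, PG91_21, PG91_22, PG91_23, PG91_24, PG91_25, PG91_26, PG91_27, PG91_28, PG91_29, PG91_30], [PG92_0, PG92_1, PG92_2, PG92_3, PG92_4, PG92_5, PG92_6, PG92_7, PG92_8, PG92_9, PG92_10, PG92_11, PG92_12], [PG93_0, PG93_1, PG93_2, PG93_3, PG93_4, PG93_5, PG93_6, PG93_7, PG93_8, PG93_9, PG93_10, PG93_11, PG93_12, PG93_13, PG93_14, PG93_15, PG93_16, PG93_17, PG93_18, PG93_19, PG93_20, PG93_21, PG93_22, PG93_23, PG93_24, PG93_25, PG93_26, PG93_27, PG93_28, PG93_29, PG93_30, PG93_31, PG93_32]] a []) k fun _ => []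
theorem okCuts : iall (fun a => and (and (Nat.beq (cutF a 0) 0) (Nat.beq (cutF a (nCut a)) (Nat.succ a)))
    (iall (fun k => Nat.ble (cutF a k) (cutF a (Nat.succ k))) (nCut a))) grid.nCls = true := by decide +kernel
noncomputable def PZ (r : ℕ) : ℕ → List (ℕ × ℤ) := List.getD [PRel0, PRel1, PRel2, PRel3, PRel4, PRel5, PRel6, PRel7, PRel8, PRel9, PRel10, PRel11, PRel12, PRel13, PRel14, PRel15, PRel16, PRel17, PRel18, PRel19, PRel20, PRel21, PRel22, PRel23, PRel24, PRel25, PRel26, PRel27, PRel28, PRel29, PRel30, PRel31, PRel32, PRel33, PRel34, PRel35, PRel36, PRel37, PRel38, PRel39, PRel40, PRel41, PRel42, PRel43, PRel44, PRel45, PRel46, PRel47, PRel48, PRel49, PRel50, PRel51, PRel52, PRel53, PRel54, PRel55, PRel56, PRel57, PRel58, PRel59, PRel60, PRel61, PRel62, PRel63, PRel64, PRel65, PRel66, PRel67, PRel68, PRel69, PRel70, PRel71, PRel72, PRel73, PRel74, PRel75, PRel76, PRel77, PRel78, PRel79, PRel80, PRel81, PRel82, PRel83, PRel84,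 PRel85, PRel86, PRel87, PRel88, PRel89, PRel90, PRel91, PRel92, PRel93, PRel94, PRel95, PRel96, PRel97, PRel98, PRel99, PRel100, PRel101, PRel102, PRel103, PRel104, PRel105, PRel106, PRel107, PRel108, PRel109, PRel110, PRel111, PRel112, PRel113, PRel114, PRel115, PRel116, PRel117, PRel118, PRel119, PRel120, PRel121, PRel122, PRel123, PRel124, PRel125, PRel126, PRel127, PRel128, PRel129, PRel130, PRel131, PRel132, PRel133, PRel134, PRel135, PRel136, PRel137, PRel138, PRel139, PRel140, PRel141, PRel142, PRel143, PRel144, PRel145, PRel146, PRel147, PRel148, PRel149, PRel150, PRel151, PRel152, PRel153, PRel154, PRel155, PRel156, PRel157, PRel158, PRel159, PRel160, PRel161, PRel162, PRel163, PRel164, PRel165, PRel166, PRel167, PRel168, PRel169, PRel170, PRel171, PRel172, PRel173, PRel174, PRel175, PRel176, PRel177, PRel178, PRel179, PRel180, PRel181, PRel182, PRel183, PRel184, PRel185, PRel186, PRel187, PRel188, PRel189, PRel190, PRel191, PRel192,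 PRel193, PRel194, PRel195, PRel196, PRel197, PRel198, PRel199, PRel200, PRel201, PRel202, PRel203, PRel204, PRel205, PRel206, PRel207, PRel208, PRel209, PRel210, PRel211, PRel212, PRel213, PRel214, PRel215, PRel216, PRel217, PRel218, PRel219, PRel220, PRel221, PRel222, PRel223, PRel224, PRel225, PRel226, PRel227, PRel228, PRel229, PRel230, PRel231, PRel232, PRel233, PRel234, PRel235, PRel236, PRel237, PRel238, PRel239, PRel240, PRel241, PRel242, PRel243, PRel244, PRel245, PRel246, PRel247, PRel248, PRel249, PRel250, PRel251, PRel252, PRel253, PRel254, PRel255, PRel256, PRel257, PRel258, PRel259, PRel260, PRel261, PRel262, PRel263, PRel264, PRel265, PRel266, PRel267, PRel268, PRel269, PRel270, PRel271, PRel272, PRel273, PRel274, PRel275, PRel276, PRel277, PRel278, PRel279, PRel280, PRel281, PRel282, PRel283, PRel284, PRel285, PRel286, PRel287, PRel288, PRel289, PRel290, PRel291, PRel292, PRel293, PRel294, PRel295, PRel296, PRel297, PRel298,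 PRel299, PRel300, PTau0] r fun _ => []
noncomputable def segBound (s : ℕ) : ℕ := List.getD [321815245131828569339880, 34942016739543717089416, 13274153220484980626243, 14445303074453761543582, 14485835197759972371797, 2475282491980648743069, 1744737099852301227403, 171862853887495241704, 9391345877116525830047, 4253545561891771528860, 13363366892358005830564, 2235513726716641877626, 14138970424703941917211, 10991076794762550257973, 6636856565724910553301, 5851883237691776078170, 8491209069058830016731, 6919825848213042278927, 8085467372489393741840, 16984813215095952645407, 1824481264189249335598, 8612895909289104702656, 6412732194253044073192, 58023044933131098987, 2123654808579688621229, 319709866738379160864, 650442130484088916110, 6959861548318194452, 610486565063549311290, 2708074713471360488461, 546411114554469252184, 123423819897987983909, 38949114765410887915, 2427170806673762777759, 1559276697863844137167, 301522723950494716151,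 2234275422979609558975, 166520438894181544752, 1624634705403693266084, 57325559794773759013, 492429464841365801710, 71239164194570235039, 293397636168714099349, 9231817144907400565, 66095779836720664572, 2315824840318670211874, 1961771890002802801605, 2451197862582104096083, 4815786966675500368, 98330291939641838425, 597202627843027696464, 50094179383183315189, 18556597544969969704, 541050993455988752377, 591879686153150243094, 17215614630420501850, 1902114128430246266329, 1337490688887184233267, 975401746277877534661, 1864871084129472357363, 62979963902700105348, 555696825472135651625, 37804691961556301061, 13973687458367092756, 5233069123681368466486, 2306453949863667474894, 177436980154415765220, 213593398860309523799, 1182592149886956229686, 23553918300231831760, 6492060917458020748, 124468302826845968223, 514255478062048956647, 469337989807404804666, 9371603037647911178, 6716850417057148830, 979793363977993656466, 45277922646784190294,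 687504463786978621489, 51153839818879267622, 4676221860044096183599, 675811377402703154081, 1356091865896167046575, 2177900758180776805526, 2078275604686098887161, 620238886360700480363, 528555765698352425938, 556477278174617453695, 39479559506394764154, 10390540317197986835, 868547829854471060847, 3078686508163225240840, 19211790649228240, 0, 0, 0] s 0

end Vale.Agent.P355.Seven.Data
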