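import Vale.Agent.P355.Seven.Data.Defs

/-! Certificate data for the flat case. -/

namespace Vale.Agent.P355.Seven.Data

noncomputable def gw0 (k i : ℕ) : ℤ := rowAt (List.getD [0x1e18391b45e1c0000000000000000786ee12f6432000000000000000070f5352292f300000000000000003705b12badc500000000000000001ae73a745a6ec0000000000000000dc16c4aede0c00000000000000006b9ce9d1759d000000000000000033f387ac6cec80000000000000009adb5c0c282e8000000000000000378ce7d3e95f20000000000000020092f53ea1294, 0x5220b9176f4400000000000000006c1925a87d4200000000000000002a458e752f4d00000000000000001208aafa14a980000000000000000adde34d7c3ec00000000000000004822abe856ea00000000000000002b778d35ef9100000000000000000ea81c8016ae80000000000000001283739d883a00000000000000001add39901680c0000000000000000000000000000, 0x1850dde04f44000000000000000013a20c5b2d56000000000000000008cc127a6f69000000000000000000902995fac1800000000000000002a6d6d0a2f3c00000000000000000240a657ea7a00000000000000000a9b5b428bfb000000000000000001ead65c8ad680000000000000000555e596f13c000000000000000000000000000000000000000000000000000000000, 0x4f319a439100000000000000000007aab90dbfc000000000000000000323aea9bfd0000000000000000013bdd4a18c9800000000000000000e294ea6cfcc000000000000000004ef7528636a0000000000000000038a53a9b3df00000000000000000847d31b19c70000000000000000000000000000000000000000000000000000000000000000000000000000000000000, 0x12bcd94a28b4000000000000000007d891db89e8000000000000000007cc66718cdc000000000000000009018a3f93e3000000000000000004237961c59a8000000000000000010a36c3ff2b80000000000000000176a403bfc7400000000000000000000000000000000000000000000000000000000000000000000000000000000000000000000000000000000000000000,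 0x7c35eaf24f4000000000000000003402a4f85cc0000000000000000033b1f9255120000000000000000031f1c01bb0080000000000000000423d04575ba80000000000000000224df4fa79e8000000000000000000000000000000000000000000000000000000000000000000000000000000000000000000000000000000000000000000000000000000000000000000000, 0x55f8f55ce3000000000000000000552f4ddc77c00000000000000000345043121680000000000000000021b07ae3039000000000000000000000000000000000000000000000118177acbb64000000000000000000000000000000000000000000000000000000000000000000000000000000000000000000000000000000000000000000000000000000000000000000000, 0x32e2d0fbdc000000000000000000326b75b4520000000000000000001ef6b4abd78000000000000000003d62ce92683000000000000000000000000000000000000000000000000000000000000000000000000000000000000000000000000000000000000000000000000000000000000000000000000000000000000000000000000000000000000000000000000000000, 0x725cb0fd838000000000000000000acddfe78c00000000000000000035c1c13ebde0000000000000000000000000000000000000000000000000000000000000000000000000000000000000000000000000000000000000000000000000000000000000000000000000000000000000000000000000000000000000000000000000000000000000000000000000000000000, 0x74ea782dd50000000000000000000bbc0097d1800000000000000000000000000000000000000000000000000000000000000000000000000000000000000000000000000000000000000000000000000000000000000000000000000000000000000000000000000000000000000000000000000000000000000000000000000000000000000000000000000000000000000,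 0x44b567aba3000000000000000000000000000000000000000000000000000000000000000000000000000000000000000000000000000000000000000000000000000000000000000000000000000000000000000000000000000000000000000000000000000000000000000000000000000000000000000000000000000000000000000] k 0) i
theorem okPsd0 : psdCheck 11 11 gw0 (grid.gram 0) = true := by decide +kernel

end Vale.Agent.P355.Seven.Data
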