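import Vale.Agent.P355.Seven.Assemble
import Vale.Agent.P355.Seven.Data.Lists

/-! Certificate data for the flat case. -/

namespace Vale.Agent.P355.Seven.Data

noncomputable def R93 : List (ℕ × ℤ) := unblocks getTotal 17 []
set_option maxRecDepth 200000 in
theorem okSeg93 : checkSeg 105 47616 (segTotals 12326993316192935537892384610181 PFeat grid.nCls nCut PG 302 PZ 93) R93 = true := by
  decide +kernel
theorem okBound93 : Nat.ble (absTotals R93) (segBound 93) = true := by decide +kernel
noncomputable def R94 : List (ℕ × ℤ) := unblocks getTotal 17 []
set_option maxRecDepth 200000 in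
theorem okSeg94 : checkSeg 105 48128 (segTotals 12326993316192935537892384610181 PFeat grid.nCls nCut PG 302 PZ 94) R94 = true := by
  decide +kernel
theorem okBound94 : Nat.ble (absTotals R94) (segBound 94) = true := by decide +kernel
noncomputable def R95 : List (ℕ × ℤ) := unblocks getTotal 17 []
set_option maxRecDepth 200000 in
theorem okSeg95 : checkSeg 105 48640 (segTotals 12326993316192935537892384610181 PFeat grid.nCls nCut PG 302 PZ 95) R95 = true := by
  decide +kernel
theorem okBound95 : Nat.ble (absTotals R95) (segBound 95) = true := by decide +kernel

end Vale.Agent.P355.Seven.Data
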