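import Vale.Agent.P355.Seven.Data.Blocks
import Vale.Agent.P355.Seven.Data.Seg0
import Vale.Agent.P355.Seven.Data.Seg1
import Vale.Agent.P355.Seven.Data.Seg2
import Vale.Agent.P355.Seven.Data.Seg3
import Vale.Agent.P355.Seven.Data.Seg4
import Vale.Agent.P355.Seven.Data.Seg5
import Vale.Agent.P355.Seven.Data.Seg6
import Vale.Agent.P355.Seven.Data.Seg7
import Vale.Agent.P355.Seven.Data.Seg8
import Vale.Agent.P355.Seven.Data.Seg9
import Vale.Agent.P355.Seven.Data.Seg10
import Vale.Agent.P355.Seven.Data.Seg11
import Vale.Agent.P355.Seven.Data.Seg12
import Vale.Agent.P355.Seven.Data.Seg13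
import Vale.Agent.P355.Seven.Data.Seg14
import Vale.Agent.P355.Seven.Data.Seg15
import Vale.Agent.P355.Seven.Data.Seg16
import Vale.Agent.P355.Seven.Data.Seg17
import Vale.Agent.P355.Seven.Data.Seg18
import Vale.Agent.P355.Seven.Data.Seg19
import Vale.Agent.P355.Seven.Data.Seg20
import Vale.Agent.P355.Seven.Data.Seg21
import Vale.Agent.P355.Seven.Data.Seg22
import Vale.Agent.P355.Seven.Data.Seg23
import Vale.Agent.P355.Seven.Data.Seg24
import Vale.Agent.P355.Seven.Data.Seg25
import Vale.Agent.P355.Seven.Data.Seg26
import Vale.Agent.P355.Seven.Data.Seg27
import Vale.Agent.P355.Seven.Data.Seg28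
import Vale.Agent.P355.Seven.Data.Seg29
import Vale.Agent.P355.Seven.Data.Seg30
import Vale.Agent.P355.Seven.Data.Seg31

/-! Certificate data for the flat case. -/

namespace Vale.Agent.P355.Seven.Data

theorem chunk_sums {h : Fin 6 → Fin 6 → ℂ} (hh : DReg h) : ∀ a < grid.nCls, ∀ k < nCut a,
    termSum h (grid.chunkTerms a (cutF a k) (cutF a (k + 1))) = idxSum h tbl (icat (PG a k) 96) := by
  intro a ha k hk
  change a < 94 at ha
  interval_cases a
  · change k < 1 at hk
    interval_cases k
    · exact termSum_of_packed hh chkG0_0
  · change k < 1 at hk
    interval_cases k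
    · exact termSum_of_packed hh chkG1_0
  · change k < 1 at hk
    interval_cases k
    · exact termSum_of_packed hh chkG2_0
  · change k < 1 at hk
    interval_cases k
    · exact termSum_of_packed hh chkG3_0
  · change k < 1 at hk
    interval_cases k
    · exact termSum_of_packed hh chkG4_0
  · change k < 1 at hk
    interval_cases k
    · exact termSum_of_packed hh chkG5_0
  · change k < 1 at hk
    interval_cases k
    · exact termSum_of_packed hh chkG6_0
  · change k < 1 at hk
    interval_cases k
    · exact termSum_of_packed hh chkG7_0
  · change k < 1 at hk
    interval_cases k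
    · exact termSum_of_packed hh chkG8_0
  · change k < 1 at hk
    interval_cases k
    · exact termSum_of_packed hh chkG9_0
  · change k < 1 at hk
    interval_cases k
    · exact termSum_of_packed hh chkG10_0
  · change k < 1 at hk
    interval_cases k
    · exact termSum_of_packed hh chkG11_0
  · change k < 1 at hk
    interval_cases k
    · exact termSum_of_packed hh chkG12_0
  · change k < 1 at hk
    interval_cases k
    · exact termSum_of_packed hh chkG13_0
  · change k < 1 at hk
    interval_cases k
    · exact termSum_of_packed hh chkG14_0
  · change k < 1 at hk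
    interval_cases k
    · exact termSum_of_packed hh chkG15_0
  · change k < 1 at hk
    interval_cases k
    · exact termSum_of_packed hh chkG16_0
  · change k < 1 at hk
    interval_cases k
    · exact termSum_of_packed hh chkG17_0
  · change k < 1 at hk
    interval_cases k
    · exact termSum_of_packed hh chkG18_0
  · change k < 1 at hk
    interval_cases k
    · exact termSum_of_packed hh chkG19_0
  · change k < 1 at hk
    interval_cases k
    · exact termSum_of_packed hh chkG20_0
  · change k < 1 at hk
    interval_cases k
    · exact termSum_of_packed hh chkG21_0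
  · change k < 1 at hk
    interval_cases k
    · exact termSum_of_packed hh chkG22_0
  · change k < 1 at hk
    interval_cases k
    · exact termSum_of_packed hh chkG23_0
  · change k < 1 at hk
    interval_cases k
    · exact termSum_of_packed hh chkG24_0
  · change k < 1 at hk
    interval_cases k
    · exact termSum_of_packed hh chkG25_0
  · change k < 2 at hk
    interval_cases k
    · exact termSum_of_packed hh chkG26_0
    · exact termSum_of_packed hh chkG26_1
  · change k < 2 at hk
    interval_cases k
    · exact termSum_of_packed hh chkG27_0
    · exact termSum_of_packed hh chkG27_1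
  · change k < 2 at hk
    interval_cases k
    · exact termSum_of_packed hh chkG28_0
    · exact termSum_of_packed hh chkG28_1
  · change k < 2 at hk
    interval_cases k
    · exact termSum_of_packed hh chkG29_0
    · exact termSum_of_packed hh chkG29_1
  · change k < 2 at hk
    interval_cases k
    · exact termSum_of_packed hh chkG30_0
    · exact termSum_of_packed hh chkG30_1
  · change k < 2 at hk
    interval_cases k
    · exact termSum_of_packed hh chkG31_0
    · exact termSum_of_packed hh chkG31_1
  · change k < 2 at hk
    interval_cases k
    · exact termSum_of_packed hh chkG32_0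
    · exact termSum_of_packed hh chkG32_1
  · change k < 2 at hk
    interval_cases k
    · exact termSum_of_packed hh chkG33_0
    · exact termSum_of_packed hh chkG33_1
  · change k < 2 at hk
    interval_cases k
    · exact termSum_of_packed hh chkG34_0
    · exact termSum_of_packed hh chkG34_1
  · change k < 2 at hk
    interval_cases k
    · exact termSum_of_packed hh chkG35_0
    · exact termSum_of_packed hh chkG35_1
  · change k < 2 at hk
    interval_cases k
    · exact termSum_of_packed hh chkG36_0
    · exact termSum_of_packed hh chkG36_1
  · change k < 3 at hk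
    interval_cases k
    · exact termSum_of_packed hh chkG37_0
    · exact termSum_of_packed hh chkG37_1
    · exact termSum_of_packed hh chkG37_2
  · change k < 3 at hk
    interval_cases k
    · exact termSum_of_packed hh chkG38_0
    · exact termSum_of_packed hh chkG38_1
    · exact termSum_of_packed hh chkG38_2
  · change k < 3 at hk
    interval_cases k
    · exact termSum_of_packed hh chkG39_0
    · exact termSum_of_packed hh chkG39_1
    · exact termSum_of_packed hh chkG39_2
  · change k < 3 at hk
    interval_cases k
    · exact termSum_of_packed hh chkG40_0
    · exact termSum_of_packed hh chkG40_1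
    · exact termSum_of_packed hh chkG40_2
  · change k < 3 at hk
    interval_cases k
    · exact termSum_of_packed hh chkG41_0
    · exact termSum_of_packed hh chkG41_1
    · exact termSum_of_packed hh chkG41_2
  · change k < 2 at hk
    interval_cases k
    · exact termSum_of_packed hh chkG42_0
    · exact termSum_of_packed hh chkG42_1
  · change k < 2 at hk
    interval_cases k
    · exact termSum_of_packed hh chkG43_0
    · exact termSum_of_packed hh chkG43_1
  · change k < 2 at hk
    interval_cases k
    · exact termSum_of_packed hh chkG44_0
    · exact termSum_of_packed hh chkG44_1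
  · change k < 2 at hk
    interval_cases k
    · exact termSum_of_packed hh chkG45_0
    · exact termSum_of_packed hh chkG45_1
  · change k < 3 at hk
    interval_cases k
    · exact termSum_of_packed hh chkG46_0
    · exact termSum_of_packed hh chkG46_1
    · exact termSum_of_packed hh chkG46_2
  · change k < 3 at hk
    interval_cases k
    · exact termSum_of_packed hh chkG47_0
    · exact termSum_of_packed hh chkG47_1
    · exact termSum_of_packed hh chkG47_2
  · change k < 4 at hk
    interval_cases k
    · exact termSum_of_packed hh chkG48_0
    · exact termSum_of_packed hh chkG48_1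
    · exact termSum_of_packed hh chkG48_2
    · exact termSum_of_packed hh chkG48_3
  · change k < 4 at hk
    interval_cases k
    · exact termSum_of_packed hh chkG49_0
    · exact termSum_of_packed hh chkG49_1
    · exact termSum_of_packed hh chkG49_2
    · exact termSum_of_packed hh chkG49_3
  · change k < 4 at hk
    interval_cases k
    · exact termSum_of_packed hh chkG50_0
    · exact termSum_of_packed hh chkG50_1
    · exact termSum_of_packed hh chkG50_2
    · exact termSum_of_packed hh chkG50_3
  · change k < 3 at hk
    interval_cases k
    · exact termSum_of_packed hh chkG51_0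
    · exact termSum_of_packed hh chkG51_1
    · exact termSum_of_packed hh chkG51_2
  · change k < 3 at hk
    interval_cases k
    · exact termSum_of_packed hh chkG52_0
    · exact termSum_of_packed hh chkG52_1
    · exact termSum_of_packed hh chkG52_2
  · change k < 7 at hk
    interval_cases k
    · exact termSum_of_packed hh chkG53_0
    · exact termSum_of_packed hh chkG53_1
    · exact termSum_of_packed hh chkG53_2
    · exact termSum_of_packed hh chkG53_3
    · exact termSum_of_packed hh chkG53_4
    · exact termSum_of_packed hh chkG53_5
    · exact termSum_of_packed hh chkG53_6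
  · change k < 7 at hk
    interval_cases k
    · exact termSum_of_packed hh chkG54_0
    · exact termSum_of_packed hh chkG54_1
    · exact termSum_of_packed hh chkG54_2
    · exact termSum_of_packed hh chkG54_3
    · exact termSum_of_packed hh chkG54_4
    · exact termSum_of_packed hh chkG54_5
    · exact termSum_of_packed hh chkG54_6
  · change k < 7 at hk
    interval_cases k
    · exact termSum_of_packed hh chkG55_0
    · exact termSum_of_packed hh chkG55_1
    · exact termSum_of_packed hh chkG55_2
    · exact termSum_of_packed hh chkG55_3
    · exact termSum_of_packed hh chkG55_4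
    · exact termSum_of_packed hh chkG55_5
    · exact termSum_of_packed hh chkG55_6
  · change k < 8 at hk
    interval_cases k
    · exact termSum_of_packed hh chkG56_0
    · exact termSum_of_packed hh chkG56_1
    · exact termSum_of_packed hh chkG56_2
    · exact termSum_of_packed hh chkG56_3
    · exact termSum_of_packed hh chkG56_4
    · exact termSum_of_packed hh chkG56_5
    · exact termSum_of_packed hh chkG56_6
    · exact termSum_of_packed hh chkG56_7
  · change k < 8 at hk
    interval_cases k
    · exact termSum_of_packed hh chkG57_0
    · exact termSum_of_packed hh chkG57_1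
    · exact termSum_of_packed hh chkG57_2
    · exact termSum_of_packed hh chkG57_3
    · exact termSum_of_packed hh chkG57_4
    · exact termSum_of_packed hh chkG57_5
    · exact termSum_of_packed hh chkG57_6
    · exact termSum_of_packed hh chkG57_7
  · change k < 9 at hk
    interval_cases k
    · exact termSum_of_packed hh chkG58_0
    · exact termSum_of_packed hh chkG58_1
    · exact termSum_of_packed hh chkG58_2
    · exact termSum_of_packed hh chkG58_3
    · exact termSum_of_packed hh chkG58_4
    · exact termSum_of_packed hh chkG58_5
    · exact termSum_of_packed hh chkG58_6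
    · exact termSum_of_packed hh chkG58_7
    · exact termSum_of_packed hh chkG58_8
  · change k < 9 at hk
    interval_cases k
    · exact termSum_of_packed hh chkG59_0
    · exact termSum_of_packed hh chkG59_1
    · exact termSum_of_packed hh chkG59_2
    · exact termSum_of_packed hh chkG59_3
    · exact termSum_of_packed hh chkG59_4
    · exact termSum_of_packed hh chkG59_5
    · exact termSum_of_packed hh chkG59_6
    · exact termSum_of_packed hh chkG59_7
    · exact termSum_of_packed hh chkG59_8
  · change k < 8 at hk
    interval_cases k
    · exact termSum_of_packed hh chkG60_0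
    · exact termSum_of_packed hh chkG60_1
    · exact termSum_of_packed hh chkG60_2
    · exact termSum_of_packed hh chkG60_3
    · exact termSum_of_packed hh chkG60_4
    · exact termSum_of_packed hh chkG60_5
    · exact termSum_of_packed hh chkG60_6
    · exact termSum_of_packed hh chkG60_7
  · change k < 3 at hk
    interval_cases k
    · exact termSum_of_packed hh chkG61_0
    · exact termSum_of_packed hh chkG61_1
    · exact termSum_of_packed hh chkG61_2
  · change k < 3 at hk
    interval_cases k
    · exact termSum_of_packed hh chkG62_0
    · exact termSum_of_packed hh chkG62_1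
    · exact termSum_of_packed hh chkG62_2
  · change k < 10 at hk
    interval_cases k
    · exact termSum_of_packed hh chkG63_0
    · exact termSum_of_packed hh chkG63_1
    · exact termSum_of_packed hh chkG63_2
    · exact termSum_of_packed hh chkG63_3
    · exact termSum_of_packed hh chkG63_4
    · exact termSum_of_packed hh chkG63_5
    · exact termSum_of_packed hh chkG63_6
    · exact termSum_of_packed hh chkG63_7
    · exact termSum_of_packed hh chkG63_8
    · exact termSum_of_packed hh chkG63_9
  · change k < 10 at hk
    interval_cases k
    · exact termSum_of_packed hh chkG64_0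
    · exact termSum_of_packed hh chkG64_1
    · exact termSum_of_packed hh chkG64_2
    · exact termSum_of_packed hh chkG64_3
    · exact termSum_of_packed hh chkG64_4
    · exact termSum_of_packed hh chkG64_5
    · exact termSum_of_packed hh chkG64_6
    · exact termSum_of_packed hh chkG64_7
    · exact termSum_of_packed hh chkG64_8
    · exact termSum_of_packed hh chkG64_9
  · change k < 3 at hk
    interval_cases k
    · exact termSum_of_packed hh chkG65_0
    · exact termSum_of_packed hh chkG65_1
    · exact termSum_of_packed hh chkG65_2
  · change k < 5 at hk
    interval_cases k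
    · exact termSum_of_packed hh chkG66_0
    · exact termSum_of_packed hh chkG66_1
    · exact termSum_of_packed hh chkG66_2
    · exact termSum_of_packed hh chkG66_3
    · exact termSum_of_packed hh chkG66_4
  · change k < 11 at hk
    interval_cases k
    · exact termSum_of_packed hh chkG67_0
    · exact termSum_of_packed hh chkG67_1
    · exact termSum_of_packed hh chkG67_2
    · exact termSum_of_packed hh chkG67_3
    · exact termSum_of_packed hh chkG67_4
    · exact termSum_of_packed hh chkG67_5
    · exact termSum_of_packed hh chkG67_6
    · exact termSum_of_packed hh chkG67_7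
    · exact termSum_of_packed hh chkG67_8
    · exact termSum_of_packed hh chkG67_9
    · exact termSum_of_packed hh chkG67_10
  · change k < 5 at hk
    interval_cases k
    · exact termSum_of_packed hh chkG68_0
    · exact termSum_of_packed hh chkG68_1
    · exact termSum_of_packed hh chkG68_2
    · exact termSum_of_packed hh chkG68_3
    · exact termSum_of_packed hh chkG68_4
  · change k < 11 at hk
    interval_cases k
    · exact termSum_of_packed hh chkG69_0
    · exact termSum_of_packed hh chkG69_1
    · exact termSum_of_packed hh chkG69_2
    · exact termSum_of_packed hh chkG69_3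
    · exact termSum_of_packed hh chkG69_4
    · exact termSum_of_packed hh chkG69_5
    · exact termSum_of_packed hh chkG69_6
    · exact termSum_of_packed hh chkG69_7
    · exact termSum_of_packed hh chkG69_8
    · exact termSum_of_packed hh chkG69_9
    · exact termSum_of_packed hh chkG69_10
  · change k < 11 at hk
    interval_cases k
    · exact termSum_of_packed hh chkG70_0
    · exact termSum_of_packed hh chkG70_1
    · exact termSum_of_packed hh chkG70_2
    · exact termSum_of_packed hh chkG70_3
    · exact termSum_of_packed hh chkG70_4
    · exact termSum_of_packed hh chkG70_5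
    · exact termSum_of_packed hh chkG70_6
    · exact termSum_of_packed hh chkG70_7
    · exact termSum_of_packed hh chkG70_8
    · exact termSum_of_packed hh chkG70_9
    · exact termSum_of_packed hh chkG70_10
  · change k < 7 at hk
    interval_cases k
    · exact termSum_of_packed hh chkG71_0
    · exact termSum_of_packed hh chkG71_1
    · exact termSum_of_packed hh chkG71_2
    · exact termSum_of_packed hh chkG71_3
    · exact termSum_of_packed hh chkG71_4
    · exact termSum_of_packed hh chkG71_5
    · exact termSum_of_packed hh chkG71_6
  · change k < 7 at hk
    interval_cases k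
    · exact termSum_of_packed hh chkG72_0
    · exact termSum_of_packed hh chkG72_1
    · exact termSum_of_packed hh chkG72_2
    · exact termSum_of_packed hh chkG72_3
    · exact termSum_of_packed hh chkG72_4
    · exact termSum_of_packed hh chkG72_5
    · exact termSum_of_packed hh chkG72_6
  · change k < 10 at hk
    interval_cases k
    · exact termSum_of_packed hh chkG73_0
    · exact termSum_of_packed hh chkG73_1
    · exact termSum_of_packed hh chkG73_2
    · exact termSum_of_packed hh chkG73_3
    · exact termSum_of_packed hh chkG73_4
    · exact termSum_of_packed hh chkG73_5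
    · exact termSum_of_packed hh chkG73_6
    · exact termSum_of_packed hh chkG73_7
    · exact termSum_of_packed hh chkG73_8
    · exact termSum_of_packed hh chkG73_9
  · change k < 10 at hk
    interval_cases k
    · exact termSum_of_packed hh chkG74_0
    · exact termSum_of_packed hh chkG74_1
    · exact termSum_of_packed hh chkG74_2
    · exact termSum_of_packed hh chkG74_3
    · exact termSum_of_packed hh chkG74_4
    · exact termSum_of_packed hh chkG74_5
    · exact termSum_of_packed hh chkG74_6
    · exact termSum_of_packed hh chkG74_7
    · exact termSum_of_packed hh chkG74_8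
    · exact termSum_of_packed hh chkG74_9
  · change k < 10 at hk
    interval_cases k
    · exact termSum_of_packed hh chkG75_0
    · exact termSum_of_packed hh chkG75_1
    · exact termSum_of_packed hh chkG75_2
    · exact termSum_of_packed hh chkG75_3
    · exact termSum_of_packed hh chkG75_4
    · exact termSum_of_packed hh chkG75_5
    · exact termSum_of_packed hh chkG75_6
    · exact termSum_of_packed hh chkG75_7
    · exact termSum_of_packed hh chkG75_8
    · exact termSum_of_packed hh chkG75_9
  · change k < 11 at hk
    interval_cases k
    · exact termSum_of_packed hh chkG76_0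
    · exact termSum_of_packed hh chkG76_1
    · exact termSum_of_packed hh chkG76_2
    · exact termSum_of_packed hh chkG76_3
    · exact termSum_of_packed hh chkG76_4
    · exact termSum_of_packed hh chkG76_5
    · exact termSum_of_packed hh chkG76_6
    · exact termSum_of_packed hh chkG76_7
    · exact termSum_of_packed hh chkG76_8
    · exact termSum_of_packed hh chkG76_9
    · exact termSum_of_packed hh chkG76_10
  · change k < 11 at hk
    interval_cases k
    · exact termSum_of_packed hh chkG77_0
    · exact termSum_of_packed hh chkG77_1
    · exact termSum_of_packed hh chkG77_2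
    · exact termSum_of_packed hh chkG77_3
    · exact termSum_of_packed hh chkG77_4
    · exact termSum_of_packed hh chkG77_5
    · exact termSum_of_packed hh chkG77_6
    · exact termSum_of_packed hh chkG77_7
    · exact termSum_of_packed hh chkG77_8
    · exact termSum_of_packed hh chkG77_9
    · exact termSum_of_packed hh chkG77_10
  · change k < 11 at hk
    interval_cases k
    · exact termSum_of_packed hh chkG78_0
    · exact termSum_of_packed hh chkG78_1
    · exact termSum_of_packed hh chkG78_2
    · exact termSum_of_packed hh chkG78_3
    · exact termSum_of_packed hh chkG78_4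
    · exact termSum_of_packed hh chkG78_5
    · exact termSum_of_packed hh chkG78_6
    · exact termSum_of_packed hh chkG78_7
    · exact termSum_of_packed hh chkG78_8
    · exact termSum_of_packed hh chkG78_9
    · exact termSum_of_packed hh chkG78_10
  · change k < 12 at hk
    interval_cases k
    · exact termSum_of_packed hh chkG79_0
    · exact termSum_of_packed hh chkG79_1
    · exact termSum_of_packed hh chkG79_2
    · exact termSum_of_packed hh chkG79_3
    · exact termSum_of_packed hh chkG79_4
    · exact termSum_of_packed hh chkG79_5
    · exact termSum_of_packed hh chkG79_6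
    · exact termSum_of_packed hh chkG79_7
    · exact termSum_of_packed hh chkG79_8
    · exact termSum_of_packed hh chkG79_9
    · exact termSum_of_packed hh chkG79_10
    · exact termSum_of_packed hh chkG79_11
  · change k < 12 at hk
    interval_cases k
    · exact termSum_of_packed hh chkG80_0
    · exact termSum_of_packed hh chkG80_1
    · exact termSum_of_packed hh chkG80_2
    · exact termSum_of_packed hh chkG80_3
    · exact termSum_of_packed hh chkG80_4
    · exact termSum_of_packed hh chkG80_5
    · exact termSum_of_packed hh chkG80_6
    · exact termSum_of_packed hh chkG80_7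
    · exact termSum_of_packed hh chkG80_8
    · exact termSum_of_packed hh chkG80_9
    · exact termSum_of_packed hh chkG80_10
    · exact termSum_of_packed hh chkG80_11
  · change k < 12 at hk
    interval_cases k
    · exact termSum_of_packed hh chkG81_0
    · exact termSum_of_packed hh chkG81_1
    · exact termSum_of_packed hh chkG81_2
    · exact termSum_of_packed hh chkG81_3
    · exact termSum_of_packed hh chkG81_4
    · exact termSum_of_packed hh chkG81_5
    · exact termSum_of_packed hh chkG81_6
    · exact termSum_of_packed hh chkG81_7
    · exact termSum_of_packed hh chkG81_8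
    · exact termSum_of_packed hh chkG81_9
    · exact termSum_of_packed hh chkG81_10
    · exact termSum_of_packed hh chkG81_11
  · change k < 13 at hk
    interval_cases k
    · exact termSum_of_packed hh chkG82_0
    · exact termSum_of_packed hh chkG82_1
    · exact termSum_of_packed hh chkG82_2
    · exact termSum_of_packed hh chkG82_3
    · exact termSum_of_packed hh chkG82_4
    · exact termSum_of_packed hh chkG82_5
    · exact termSum_of_packed hh chkG82_6
    · exact termSum_of_packed hh chkG82_7
    · exact termSum_of_packed hh chkG82_8
    · exact termSum_of_packed hh chkG82_9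
    · exact termSum_of_packed hh chkG82_10
    · exact termSum_of_packed hh chkG82_11
    · exact termSum_of_packed hh chkG82_12
  · change k < 13 at hk
    interval_cases k
    · exact termSum_of_packed hh chkG83_0
    · exact termSum_of_packed hh chkG83_1
    · exact termSum_of_packed hh chkG83_2
    · exact termSum_of_packed hh chkG83_3
    · exact termSum_of_packed hh chkG83_4
    · exact termSum_of_packed hh chkG83_5
    · exact termSum_of_packed hh chkG83_6
    · exact termSum_of_packed hh chkG83_7
    · exact termSum_of_packed hh chkG83_8
    · exact termSum_of_packed hh chkG83_9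
    · exact termSum_of_packed hh chkG83_10
    · exact termSum_of_packed hh chkG83_11
    · exact termSum_of_packed hh chkG83_12
  · change k < 13 at hk
    interval_cases k
    · exact termSum_of_packed hh chkG84_0
    · exact termSum_of_packed hh chkG84_1
    · exact termSum_of_packed hh chkG84_2
    · exact termSum_of_packed hh chkG84_3
    · exact termSum_of_packed hh chkG84_4
    · exact termSum_of_packed hh chkG84_5
    · exact termSum_of_packed hh chkG84_6
    · exact termSum_of_packed hh chkG84_7
    · exact termSum_of_packed hh chkG84_8
    · exact termSum_of_packed hh chkG84_9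
    · exact termSum_of_packed hh chkG84_10
    · exact termSum_of_packed hh chkG84_11
    · exact termSum_of_packed hh chkG84_12
  · change k < 14 at hk
    interval_cases k
    · exact termSum_of_packed hh chkG85_0
    · exact termSum_of_packed hh chkG85_1
    · exact termSum_of_packed hh chkG85_2
    · exact termSum_of_packed hh chkG85_3
    · exact termSum_of_packed hh chkG85_4
    · exact termSum_of_packed hh chkG85_5
    · exact termSum_of_packed hh chkG85_6
    · exact termSum_of_packed hh chkG85_7
    · exact termSum_of_packed hh chkG85_8
    · exact termSum_of_packed hh chkG85_9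
    · exact termSum_of_packed hh chkG85_10
    · exact termSum_of_packed hh chkG85_11
    · exact termSum_of_packed hh chkG85_12
    · exact termSum_of_packed hh chkG85_13
  · change k < 26 at hk
    interval_cases k
    · exact termSum_of_packed hh chkG86_0
    · exact termSum_of_packed hh chkG86_1
    · exact termSum_of_packed hh chkG86_2
    · exact termSum_of_packed hh chkG86_3
    · exact termSum_of_packed hh chkG86_4
    · exact termSum_of_packed hh chkG86_5
    · exact termSum_of_packed hh chkG86_6
    · exact termSum_of_packed hh chkG86_7
    · exact termSum_of_packed hh chkG86_8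
    · exact termSum_of_packed hh chkG86_9
    · exact termSum_of_packed hh chkG86_10
    · exact termSum_of_packed hh chkG86_11
    · exact termSum_of_packed hh chkG86_12
    · exact termSum_of_packed hh chkG86_13
    · exact termSum_of_packed hh chkG86_14
    · exact termSum_of_packed hh chkG86_15
    · exact termSum_of_packed hh chkG86_16
    · exact termSum_of_packed hh chkG86_17
    · exact termSum_of_packed hh chkG86_18
    · exact termSum_of_packed hh chkG86_19
    · exact termSum_of_packed hh chkG86_20
    · exact termSum_of_packed hh chkG86_21
    · exact termSum_of_packed hh chkG86_22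
    · exact termSum_of_packed hh chkG86_23
    · exact termSum_of_packed hh chkG86_24
    · exact termSum_of_packed hh chkG86_25
  · change k < 27 at hk
    interval_cases k
    · exact termSum_of_packed hh chkG87_0
    · exact termSum_of_packed hh chkG87_1
    · exact termSum_of_packed hh chkG87_2
    · exact termSum_of_packed hh chkG87_3
    · exact termSum_of_packed hh chkG87_4
    · exact termSum_of_packed hh chkG87_5
    · exact termSum_of_packed hh chkG87_6
    · exact termSum_of_packed hh chkG87_7
    · exact termSum_of_packed hh chkG87_8
    · exact termSum_of_packed hh chkG87_9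
    · exact termSum_of_packed hh chkG87_10
    · exact termSum_of_packed hh chkG87_11
    · exact termSum_of_packed hh chkG87_12
    · exact termSum_of_packed hh chkG87_13
    · exact termSum_of_packed hh chkG87_14
    · exact termSum_of_packed hh chkG87_15
    · exact termSum_of_packed hh chkG87_16
    · exact termSum_of_packed hh chkG87_17
    · exact termSum_of_packed hh chkG87_18
    · exact termSum_of_packed hh chkG87_19
    · exact termSum_of_packed hh chkG87_20
    · exact termSum_of_packed hh chkG87_21
    · exact termSum_of_packed hh chkG87_22
    · exact termSum_of_packed hh chkG87_23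
    · exact termSum_of_packed hh chkG87_24
    · exact termSum_of_packed hh chkG87_25
    · exact termSum_of_packed hh chkG87_26
  · change k < 28 at hk
    interval_cases k
    · exact termSum_of_packed hh chkG88_0
    · exact termSum_of_packed hh chkG88_1
    · exact termSum_of_packed hh chkG88_2
    · exact termSum_of_packed hh chkG88_3
    · exact termSum_of_packed hh chkG88_4
    · exact termSum_of_packed hh chkG88_5
    · exact termSum_of_packed hh chkG88_6
    · exact termSum_of_packed hh chkG88_7
    · exact termSum_of_packed hh chkG88_8
    · exact termSum_of_packed hh chkG88_9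
    · exact termSum_of_packed hh chkG88_10
    · exact termSum_of_packed hh chkG88_11
    · exact termSum_of_packed hh chkG88_12
    · exact termSum_of_packed hh chkG88_13
    · exact termSum_of_packed hh chkG88_14
    · exact termSum_of_packed hh chkG88_15
    · exact termSum_of_packed hh chkG88_16
    · exact termSum_of_packed hh chkG88_17
    · exact termSum_of_packed hh chkG88_18
    · exact termSum_of_packed hh chkG88_19
    · exact termSum_of_packed hh chkG88_20
    · exact termSum_of_packed hh chkG88_21
    · exact termSum_of_packed hh chkG88_22
    · exact termSum_of_packed hh chkG88_23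
    · exact termSum_of_packed hh chkG88_24
    · exact termSum_of_packed hh chkG88_25
    · exact termSum_of_packed hh chkG88_26
    · exact termSum_of_packed hh chkG88_27
  · change k < 29 at hk
    interval_cases k
    · exact termSum_of_packed hh chkG89_0
    · exact termSum_of_packed hh chkG89_1
    · exact termSum_of_packed hh chkG89_2
    · exact termSum_of_packed hh chkG89_3
    · exact termSum_of_packed hh chkG89_4
    · exact termSum_of_packed hh chkG89_5
    · exact termSum_of_packed hh chkG89_6
    · exact termSum_of_packed hh chkG89_7
    · exact termSum_of_packed hh chkG89_8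
    · exact termSum_of_packed hh chkG89_9
    · exact termSum_of_packed hh chkG89_10
    · exact termSum_of_packed hh chkG89_11
    · exact termSum_of_packed hh chkG89_12
    · exact termSum_of_packed hh chkG89_13
    · exact termSum_of_packed hh chkG89_14
    · exact termSum_of_packed hh chkG89_15
    · exact termSum_of_packed hh chkG89_16
    · exact termSum_of_packed hh chkG89_17
    · exact termSum_of_packed hh chkG89_18
    · exact termSum_of_packed hh chkG89_19
    · exact termSum_of_packed hh chkG89_20
    · exact termSum_of_packed hh chkG89_21
    · exact termSum_of_packed hh chkG89_22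
    · exact termSum_of_packed hh chkG89_23
    · exact termSum_of_packed hh chkG89_24
    · exact termSum_of_packed hh chkG89_25
    · exact termSum_of_packed hh chkG89_26
    · exact termSum_of_packed hh chkG89_27
    · exact termSum_of_packed hh chkG89_28
  · change k < 27 at hk
    interval_cases k
    · exact termSum_of_packed hh chkG90_0
    · exact termSum_of_packed hh chkG90_1
    · exact termSum_of_packed hh chkG90_2
    · exact termSum_of_packed hh chkG90_3
    · exact termSum_of_packed hh chkG90_4
    · exact termSum_of_packed hh chkG90_5
    · exact termSum_of_packed hh chkG90_6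
    · exact termSum_of_packed hh chkG90_7
    · exact termSum_of_packed hh chkG90_8
    · exact termSum_of_packed hh chkG90_9
    · exact termSum_of_packed hh chkG90_10
    · exact termSum_of_packed hh chkG90_11
    · exact termSum_of_packed hh chkG90_12
    · exact termSum_of_packed hh chkG90_13
    · exact termSum_of_packed hh chkG90_14
    · exact termSum_of_packed hh chkG90_15
    · exact termSum_of_packed hh chkG90_16
    · exact termSum_of_packed hh chkG90_17
    · exact termSum_of_packed hh chkG90_18
    · exact termSum_of_packed hh chkG90_19
    · exact termSum_of_packed hh chkG90_20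
    · exact termSum_of_packed hh chkG90_21
    · exact termSum_of_packed hh chkG90_22
    · exact termSum_of_packed hh chkG90_23
    · exact termSum_of_packed hh chkG90_24
    · exact termSum_of_packed hh chkG90_25
    · exact termSum_of_packed hh chkG90_26
  · change k < 31 at hk
    interval_cases k
    · exact termSum_of_packed hh chkG91_0
    · exact termSum_of_packed hh chkG91_1
    · exact termSum_of_packed hh chkG91_2
    · exact termSum_of_packed hh chkG91_3
    · exact termSum_of_packed hh chkG91_4
    · exact termSum_of_packed hh chkG91_5
    · exact termSum_of_packed hh chkG91_6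
    · exact termSum_of_packed hh chkG91_7
    · exact termSum_of_packed hh chkG91_8
    · exact termSum_of_packed hh chkG91_9
    · exact termSum_of_packed hh chkG91_10
    · exact termSum_of_packed hh chkG91_11
    · exact termSum_of_packed hh chkG91_12
    · exact termSum_of_packed hh chkG91_13
    · exact termSum_of_packed hh chkG91_14
    · exact termSum_of_packed hh chkG91_15
    · exact termSum_of_packed hh chkG91_16
    · exact termSum_of_packed hh chkG91_17
    · exact termSum_of_packed hh chkG91_18
    · exact termSum_of_packed hh chkG91_19
    · exact termSum_of_packed hh chkG91_20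
    · exact termSum_of_packed hh chkG91_21
    · exact termSum_of_packed hh chkG91_22
    · exact termSum_of_packed hh chkG91_23
    · exact termSum_of_packed hh chkG91_24
    · exact termSum_of_packed hh chkG91_25
    · exact termSum_of_packed hh chkG91_26
    · exact termSum_of_packed hh chkG91_27
    · exact termSum_of_packed hh chkG91_28
    · exact termSum_of_packed hh chkG91_29
    · exact termSum_of_packed hh chkG91_30
  · change k < 13 at hk
    interval_cases k
    · exact termSum_of_packed hh chkG92_0
    · exact termSum_of_packed hh chkG92_1
    · exact termSum_of_packed hh chkG92_2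
    · exact termSum_of_packed hh chkG92_3
    · exact termSum_of_packed hh chkG92_4
    · exact termSum_of_packed hh chkG92_5
    · exact termSum_of_packed hh chkG92_6
    · exact termSum_of_packed hh chkG92_7
    · exact termSum_of_packed hh chkG92_8
    · exact termSum_of_packed hh chkG92_9
    · exact termSum_of_packed hh chkG92_10
    · exact termSum_of_packed hh chkG92_11
    · exact termSum_of_packed hh chkG92_12
  · change k < 33 at hk
    interval_cases k
    · exact termSum_of_packed hh chkG93_0
    · exact termSum_of_packed hh chkG93_1
    · exact termSum_of_packed hh chkG93_2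
    · exact termSum_of_packed hh chkG93_3
    · exact termSum_of_packed hh chkG93_4
    · exact termSum_of_packed hh chkG93_5
    · exact termSum_of_packed hh chkG93_6
    · exact termSum_of_packed hh chkG93_7
    · exact termSum_of_packed hh chkG93_8
    · exact termSum_of_packed hh chkG93_9
    · exact termSum_of_packed hh chkG93_10
    · exact termSum_of_packed hh chkG93_11
    · exact termSum_of_packed hh chkG93_12
    · exact termSum_of_packed hh chkG93_13
    · exact termSum_of_packed hh chkG93_14
    · exact termSum_of_packed hh chkG93_15
    · exact termSum_of_packed hh chkG93_16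
    · exact termSum_of_packed hh chkG93_17
    · exact termSum_of_packed hh chkG93_18
    · exact termSum_of_packed hh chkG93_19
    · exact termSum_of_packed hh chkG93_20
    · exact termSum_of_packed hh chkG93_21
    · exact termSum_of_packed hh chkG93_22
    · exact termSum_of_packed hh chkG93_23
    · exact termSum_of_packed hh chkG93_24
    · exact termSum_of_packed hh chkG93_25
    · exact termSum_of_packed hh chkG93_26
    · exact termSum_of_packed hh chkG93_27
    · exact termSum_of_packed hh chkG93_28
    · exact termSum_of_packed hh chkG93_29
    · exact termSum_of_packed hh chkG93_30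
    · exact termSum_of_packed hh chkG93_31
    · exact termSum_of_packed hh chkG93_32
theorem zero_sums {h : Fin 6 → Fin 6 → ℂ} (hh : DReg h) (ht : TauFlat h) : ∀ r < 302,
    idxSum h tbl (icat (PZ r) 96) = 0 := by
  intro r hr
  interval_cases r
  · exact zeroRel0 hh
  · exact zeroRel1 hh
  · exact zeroRel2 hh
  · exact zeroRel3 hh
  · exact zeroRel4 hh
  · exact zeroRel5 hh
  · exact zeroRel6 hh
  · exact zeroRel7 hh
  · exact zeroRel8 hh
  · exact zeroRel9 hh
  · exact zeroRel10 hh
  · exact zeroRel11 hh
  · exact zeroRel12 hh
  · exact zeroRel13 hh
  · exact zeroRel14 hh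
  · exact zeroRel15 hh
  · exact zeroRel16 hh
  · exact zeroRel17 hh
  · exact zeroRel18 hh
  · exact zeroRel19 hh
  · exact zeroRel20 hh
  · exact zeroRel21 hh
  · exact zeroRel22 hh
  · exact zeroRel23 hh
  · exact zeroRel24 hh
  · exact zeroRel25 hh
  · exact zeroRel26 hh
  · exact zeroRel27 hh
  · exact zeroRel28 hh
  · exact zeroRel29 hh
  · exact zeroRel30 hh
  · exact zeroRel31 hh
  · exact zeroRel32 hh
  · exact zeroRel33 hh
  · exact zeroRel34 hh
  · exact zeroRel35 hh
  · exact zeroRel36 hh
  · exact zeroRel37 hh
  · exact zeroRel38 hh
  · exact zeroRel39 hh
  · exact zeroRel40 hh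
  · exact zeroRel41 hh
  · exact zeroRel42 hh
  · exact zeroRel43 hh
  · exact zeroRel44 hh
  · exact zeroRel45 hh
  · exact zeroRel46 hh
  · exact zeroRel47 hh
  · exact zeroRel48 hh
  · exact zeroRel49 hh
  · exact zeroRel50 hh
  · exact zeroRel51 hh
  · exact zeroRel52 hh
  · exact zeroRel53 hh
  · exact zeroRel54 hh
  · exact zeroRel55 hh
  · exact zeroRel56 hh
  · exact zeroRel57 hh
  · exact zeroRel58 hh
  · exact zeroRel59 hh
  · exact zeroRel60 hh
  · exact zeroRel61 hh
  · exact zeroRel62 hh
  · exact zeroRel63 hh
  · exact zeroRel64 hh
  · exact zeroRel65 hh
  · exact zeroRel66 hh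
  · exact zeroRel67 hh
  · exact zeroRel68 hh
  · exact zeroRel69 hh
  · exact zeroRel70 hh
  · exact zeroRel71 hh
  · exact zeroRel72 hh
  · exact zeroRel73 hh
  · exact zeroRel74 hh
  · exact zeroRel75 hh
  · exact zeroRel76 hh
  · exact zeroRel77 hh
  · exact zeroRel78 hh
  · exact zeroRel79 hh
  · exact zeroRel80 hh
  · exact zeroRel81 hh
  · exact zeroRel82 hh
  · exact zeroRel83 hh
  · exact zeroRel84 hh
  · exact zeroRel85 hh
  · exact zeroRel86 hh
  · exact zeroRel87 hh
  · exact zeroRel88 hh
  · exact zeroRel89 hh
  · exact zeroRel90 hh
  · exact zeroRel91 hh
  · exact zeroRel92 hh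
  · exact zeroRel93 hh
  · exact zeroRel94 hh
  · exact zeroRel95 hh
  · exact zeroRel96 hh
  · exact zeroRel97 hh
  · exact zeroRel98 hh
  · exact zeroRel99 hh
  · exact zeroRel100 hh
  · exact zeroRel101 hh
  · exact zeroRel102 hh
  · exact zeroRel103 hh
  · exact zeroRel104 hh
  · exact zeroRel105 hh
  · exact zeroRel106 hh
  · exact zeroRel107 hh
  · exact zeroRel108 hh
  · exact zeroRel109 hh
  · exact zeroRel110 hh
  · exact zeroRel111 hh
  · exact zeroRel112 hh
  · exact zeroRel113 hh
  · exact zeroRel114 hh
  · exact zeroRel115 hh
  · exact zeroRel116 hh
  · exact zeroRel117 hh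
  · exact zeroRel118 hh
  · exact zeroRel119 hh
  · exact zeroRel120 hh
  · exact zeroRel121 hh
  · exact zeroRel122 hh
  · exact zeroRel123 hh
  · exact zeroRel124 hh
  · exact zeroRel125 hh
  · exact zeroRel126 hh
  · exact zeroRel127 hh
  · exact zeroRel128 hh
  · exact zeroRel129 hh
  · exact zeroRel130 hh
  · exact zeroRel131 hh
  · exact zeroRel132 hh
  · exact zeroRel133 hh
  · exact zeroRel134 hh
  · exact zeroRel135 hh
  · exact zeroRel136 hh
  · exact zeroRel137 hh
  · exact zeroRel138 hh
  · exact zeroRel139 hh
  · exact zeroRel140 hh
  · exact zeroRel141 hh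
  · exact zeroRel142 hh
  · exact zeroRel143 hh
  · exact zeroRel144 hh
  · exact zeroRel145 hh
  · exact zeroRel146 hh
  · exact zeroRel147 hh
  · exact zeroRel148 hh
  · exact zeroRel149 hh
  · exact zeroRel150 hh
  · exact zeroRel151 hh
  · exact zeroRel152 hh
  · exact zeroRel153 hh
  · exact zeroRel154 hh
  · exact zeroRel155 hh
  · exact zeroRel156 hh
  · exact zeroRel157 hh
  · exact zeroRel158 hh
  · exact zeroRel159 hh
  · exact zeroRel160 hh
  · exact zeroRel161 hh
  · exact zeroRel162 hh
  · exact zeroRel163 hh
  · exact zeroRel164 hh
  · exact zeroRel165 hh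
  · exact zeroRel166 hh
  · exact zeroRel167 hh
  · exact zeroRel168 hh
  · exact zeroRel169 hh
  · exact zeroRel170 hh
  · exact zeroRel171 hh
  · exact zeroRel172 hh
  · exact zeroRel173 hh
  · exact zeroRel174 hh
  · exact zeroRel175 hh
  · exact zeroRel176 hh
  · exact zeroRel177 hh
  · exact zeroRel178 hh
  · exact zeroRel179 hh
  · exact zeroRel180 hh
  · exact zeroRel181 hh
  · exact zeroRel182 hh
  · exact zeroRel183 hh
  · exact zeroRel184 hh
  · exact zeroRel185 hh
  · exact zeroRel186 hh
  · exact zeroRel187 hh
  · exact zeroRel188 hh
  · exact zeroRel189 hh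
  · exact zeroRel190 hh
  · exact zeroRel191 hh
  · exact zeroRel192 hh
  · exact zeroRel193 hh
  · exact zeroRel194 hh
  · exact zeroRel195 hh
  · exact zeroRel196 hh
  · exact zeroRel197 hh
  · exact zeroRel198 hh
  · exact zeroRel199 hh
  · exact zeroRel200 hh
  · exact zeroRel201 hh
  · exact zeroRel202 hh
  · exact zeroRel203 hh
  · exact zeroRel204 hh
  · exact zeroRel205 hh
  · exact zeroRel206 hh
  · exact zeroRel207 hh
  · exact zeroRel208 hh
  · exact zeroRel209 hh
  · exact zeroRel210 hh
  · exact zeroRel211 hh
  · exact zeroRel212 hh
  · exact zeroRel213 hh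
  · exact zeroRel214 hh
  · exact zeroRel215 hh
  · exact zeroRel216 hh
  · exact zeroRel217 hh
  · exact zeroRel218 hh
  · exact zeroRel219 hh
  · exact zeroRel220 hh
  · exact zeroRel221 hh
  · exact zeroRel222 hh
  · exact zeroRel223 hh
  · exact zeroRel224 hh
  · exact zeroRel225 hh
  · exact zeroRel226 hh
  · exact zeroRel227 hh
  · exact zeroRel228 hh
  · exact zeroRel229 hh
  · exact zeroRel230 hh
  · exact zeroRel231 hh
  · exact zeroRel232 hh
  · exact zeroRel233 hh
  · exact zeroRel234 hh
  · exact zeroRel235 hh
  · exact zeroRel236 hh
  · exact zeroRel237 hh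
  · exact zeroRel238 hh
  · exact zeroRel239 hh
  · exact zeroRel240 hh
  · exact zeroRel241 hh
  · exact zeroRel242 hh
  · exact zeroRel243 hh
  · exact zeroRel244 hh
  · exact zeroRel245 hh
  · exact zeroRel246 hh
  · exact zeroRel247 hh
  · exact zeroRel248 hh
  · exact zeroRel249 hh
  · exact zeroRel250 hh
  · exact zeroRel251 hh
  · exact zeroRel252 hh
  · exact zeroRel253 hh
  · exact zeroRel254 hh
  · exact zeroRel255 hh
  · exact zeroRel256 hh
  · exact zeroRel257 hh
  · exact zeroRel258 hh
  · exact zeroRel259 hh
  · exact zeroRel260 hh
  · exact zeroRel261 hh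
  · exact zeroRel262 hh
  · exact zeroRel263 hh
  · exact zeroRel264 hh
  · exact zeroRel265 hh
  · exact zeroRel266 hh
  · exact zeroRel267 hh
  · exact zeroRel268 hh
  · exact zeroRel269 hh
  · exact zeroRel270 hh
  · exact zeroRel271 hh
  · exact zeroRel272 hh
  · exact zeroRel273 hh
  · exact zeroRel274 hh
  · exact zeroRel275 hh
  · exact zeroRel276 hh
  · exact zeroRel277 hh
  · exact zeroRel278 hh
  · exact zeroRel279 hh
  · exact zeroRel280 hh
  · exact zeroRel281 hh
  · exact zeroRel282 hh
  · exact zeroRel283 hh
  · exact zeroRel284 hh
  · exact zeroRel285 hh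
  · exact zeroRel286 hh
  · exact zeroRel287 hh
  · exact zeroRel288 hh
  · exact zeroRel289 hh
  · exact zeroRel290 hh
  · exact zeroRel291 hh
  · exact zeroRel292 hh
  · exact zeroRel293 hh
  · exact zeroRel294 hh
  · exact zeroRel295 hh
  · exact zeroRel296 hh
  · exact zeroRel297 hh
  · exact zeroRel298 hh
  · exact zeroRel299 hh
  · exact zeroRel300 hh
  · exact zeroTau0 hh ht
theorem seg_bound {h : Fin 6 → Fin 6 → ℂ} (hh : DReg h) {B o : ℕ} {P R : List (ℕ × ℤ)} {b : ℕ}
    (hc : checkSeg B o P R = true) (hb : Nat.ble (absTotals R) b = true) :
    ‖idxSum h tbl P‖ ≤ (b : ℝ) * (3 * (Fintype.card Gsym : ℝ)) := by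
  rw [idxSum_of_checkSeg hc]
  exact (norm_idxSum_le hh R).trans
    (mul_le_mul_of_nonneg_right (Nat.cast_le.2 (Nat.le_of_ble_eq_true hb)) (by positivity))
theorem seg_checks {h : Fin 6 → Fin 6 → ℂ} (hh : DReg h) : ∀ s < 96,
    ‖idxSum h tbl (segTotals 12326993316192935537892384610181 PFeat grid.nCls nCut PG 302 PZ s)‖ ≤
      (segBound s : ℝ) * (3 * (Fintype.card Gsym : ℝ)) := by
  intro s hs
  interval_cases s
  · exact seg_bound hh okSeg0 okBound0
  · exact seg_bound hh okSeg1 okBound1
  · exact seg_bound hh okSeg2 okBound2
  · exact seg_bound hh okSeg3 okBound3
  · exact seg_bound hh okSeg4 okBound4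
  · exact seg_bound hh okSeg5 okBound5
  · exact seg_bound hh okSeg6 okBound6
  · exact seg_bound hh okSeg7 okBound7
  · exact seg_bound hh okSeg8 okBound8
  · exact seg_bound hh okSeg9 okBound9
  · exact seg_bound hh okSeg10 okBound10
  · exact seg_bound hh okSeg11 okBound11
  · exact seg_bound hh okSeg12 okBound12
  · exact seg_bound hh okSeg13 okBound13
  · exact seg_bound hh okSeg14 okBound14
  · exact seg_bound hh okSeg15 okBound15
  · exact seg_bound hh okSeg16 okBound16
  · exact seg_bound hh okSeg17 okBound17
  · exact seg_bound hh okSeg18 okBound18
  · exact seg_bound hh okSeg19 okBound19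
  · exact seg_bound hh okSeg20 okBound20
  · exact seg_bound hh okSeg21 okBound21
  · exact seg_bound hh okSeg22 okBound22
  · exact seg_bound hh okSeg23 okBound23
  · exact seg_bound hh okSeg24 okBound24
  · exact seg_bound hh okSeg25 okBound25
  · exact seg_bound hh okSeg26 okBound26
  · exact seg_bound hh okSeg27 okBound27
  · exact seg_bound hh okSeg28 okBound28
  · exact seg_bound hh okSeg29 okBound29
  · exact seg_bound hh okSeg30 okBound30
  · exact seg_bound hh okSeg31 okBound31
  · exact seg_bound hh okSeg32 okBound32
  · exact seg_bound hh okSeg33 okBound33
  · exact seg_bound hh okSeg34 okBound34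
  · exact seg_bound hh okSeg35 okBound35
  · exact seg_bound hh okSeg36 okBound36
  · exact seg_bound hh okSeg37 okBound37
  · exact seg_bound hh okSeg38 okBound38
  · exact seg_bound hh okSeg39 okBound39
  · exact seg_bound hh okSeg40 okBound40
  · exact seg_bound hh okSeg41 okBound41
  · exact seg_bound hh okSeg42 okBound42
  · exact seg_bound hh okSeg43 okBound43
  · exact seg_bound hh okSeg44 okBound44
  · exact seg_bound hh okSeg45 okBound45
  · exact seg_bound hh okSeg46 okBound46
  · exact seg_bound hh okSeg47 okBound47
  · exact seg_bound hh okSeg48 okBound48
  · exact seg_bound hh okSeg49 okBound49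
  · exact seg_bound hh okSeg50 okBound50
  · exact seg_bound hh okSeg51 okBound51
  · exact seg_bound hh okSeg52 okBound52
  · exact seg_bound hh okSeg53 okBound53
  · exact seg_bound hh okSeg54 okBound54
  · exact seg_bound hh okSeg55 okBound55
  · exact seg_bound hh okSeg56 okBound56
  · exact seg_bound hh okSeg57 okBound57
  · exact seg_bound hh okSeg58 okBound58
  · exact seg_bound hh okSeg59 okBound59
  · exact seg_bound hh okSeg60 okBound60
  · exact seg_bound hh okSeg61 okBound61
  · exact seg_bound hh okSeg62 okBound62
  · exact seg_bound hh okSeg63 okBound63
  · exact seg_bound hh okSeg64 okBound64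
  · exact seg_bound hh okSeg65 okBound65
  · exact seg_bound hh okSeg66 okBound66
  · exact seg_bound hh okSeg67 okBound67
  · exact seg_bound hh okSeg68 okBound68
  · exact seg_bound hh okSeg69 okBound69
  · exact seg_bound hh okSeg70 okBound70
  · exact seg_bound hh okSeg71 okBound71
  · exact seg_bound hh okSeg72 okBound72
  · exact seg_bound hh okSeg73 okBound73
  · exact seg_bound hh okSeg74 okBound74
  · exact seg_bound hh okSeg75 okBound75
  · exact seg_bound hh okSeg76 okBound76
  · exact seg_bound hh okSeg77 okBound77
  · exact seg_bound hh okSeg78 okBound78
  · exact seg_bound hh okSeg79 okBound79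
  · exact seg_bound hh okSeg80 okBound80
  · exact seg_bound hh okSeg81 okBound81
  · exact seg_bound hh okSeg82 okBound82
  · exact seg_bound hh okSeg83 okBound83
  · exact seg_bound hh okSeg84 okBound84
  · exact seg_bound hh okSeg85 okBound85
  · exact seg_bound hh okSeg86 okBound86
  · exact seg_bound hh okSeg87 okBound87
  · exact seg_bound hh okSeg88 okBound88
  · exact seg_bound hh okSeg89 okBound89
  · exact seg_bound hh okSeg90 okBound90
  · exact seg_bound hh okSeg91 okBound91
  · exact seg_bound hh okSeg92 okBound92
  · exact seg_bound hh okSeg93 okBound93
  · exact seg_bound hh okSeg94 okBound94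
  · exact seg_bound hh okSeg95 okBound95
theorem tbl_zero : tbl 0 = [] := by decide +kernel
theorem bound_small : 3 * ((∑ s ∈ Finset.range 96, segBound s : ℕ) : ℤ) < 12326993316192935537892384610181 := by decide +kernel
theorem case_identity (h : Fin 6 → Fin 6 → ℂ) (hh : DReg h) (ht : TauFlat h) :
    ∃ s : ℂ, 0 ≤ s.re ∧ termSum h (allFeatTerms feats) + s + ((1 : ℤ) : ℂ) * wVal h [] = 0 :=
  identity_of_parts hh (termSum_of_packed hh chkFeat)
    (grid.nonneg_of_chunks corrW okClasses okCorr okAllVecs okAllPsd nCut cutF okCuts
      (fun a k => icat (PG a k) 96) (chunk_sums hh))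
    (zero_sums hh ht) (by norm_num) tbl_zero segBound (seg_checks hh) bound_small
/-- A family of pairwise unbiased bases with one flat pair has at most six members. -/
theorem card_le_six_flat (k : ℕ) (B : Fin k → OrthonormalBasis (Fin 6) ℂ (EuclideanSpace ℂ (Fin 6)))
    (hB : ∀ c d, c ≠ d → ∀ i j, ‖inner ℂ (B c i) (B d j)‖ ^ 2 = 1 / 6) {c d : Fin k} (hcd : c ≠ d)
    (ht : TauFlat fun i j => inner ℂ (B c i) (B d j)) : k ≤ 6 :=
  card_le_six_of_flat_identity feats feats_par feats_wt 1 (by norm_num) case_identity k B hB hcd ht

end Vale.Agent.P355.Seven.Data
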